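import Vale.Agent.P261.H468.DerDef
import Mathlib.NumberTheory.Multiplicity

/-!
# P261, leaf K12: derived complete groups killed by a power of `p`, lifting the exponent
-/

namespace Vale.Agent.P261

theorem DerComplete.smul_eq_zero_of_forall {p : ℕ} [Fact p.Prime] {A : Type*} [AddCommGroup A]
    (h : DerComplete p A) {N : ℤ} {a : ℕ} (hN : (p : ℤ) ^ a ∣ N) (hN' : ¬ (p : ℤ) ^ (a + 1) ∣ N)
    (hA : ∀ (k : ℕ) (x : A), ∃ y : A, N • x = (p ^ k : ℕ) • y) (x : A) : (p ^ a : ℕ) • x = 0 := by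
  have hp : p.Prime := Fact.out
  have hpZ : Prime (p : ℤ) := Nat.prime_iff_prime_int.mp hp
  obtain ⟨u, hu⟩ := hN
  have hpu : ¬ (p : ℤ) ∣ u := by
    rintro ⟨v, hv⟩
    exact hN' ⟨v, by rw [hu, hv, pow_succ, mul_assoc]⟩
  have hcop : IsCoprime (p : ℤ) u := by
    rw [Int.isCoprime_iff_gcd_eq_one]
    have h1 : Nat.Coprime p u.natAbs :=
      (Nat.Prime.coprime_iff_not_dvd hp).mpr fun h' => hpu (Int.natCast_dvd.mpr h')
    rw [Int.gcd_def, Int.natAbs_natCast]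
    exact h1
  obtain ⟨s, t, hst⟩ := hcop
  -- s * p + t * u = 1
  have key : ∀ x : A, ∃ z : A, (p ^ a : ℕ) • x = p • ((p ^ a : ℕ) • z) := by
    intro x
    obtain ⟨y, hy⟩ := hA (a + 1) x
    refine ⟨s • x + t • y, ?_⟩
    have e1 : (p ^ a : ℕ) • x = (((p : ℤ) ^ a * (s * p + t * u)) : ℤ) • x := by
      rw [hst, mul_one, ← natCast_zsmul]
      push_cast
      rfl
    have e2 : (((p : ℤ) ^ a * (s * p + t * u)) : ℤ) • x =
        ((p : ℤ) ^ a * s * p) • x + t • (N • x) := by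
      rw [smul_smul, ← add_smul, hu]
      congr 1
      ring
    have e3 : t • (N • x) = ((p : ℤ) ^ a * t * p) • y := by
      rw [hy, ← natCast_zsmul, smul_smul]
      congr 1
      push_cast
      ring
    have e4 : p • ((p ^ a : ℕ) • (s • x + t • y)) =
        ((p : ℤ) ^ a * s * p) • x + ((p : ℤ) ^ a * t * p) • y := by
      rw [← natCast_zsmul, ← natCast_zsmul (n := p ^ a), smul_smul, smul_add, smul_smul, smul_smul]
      congr 1
      · congr 1
        push_cast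
        ring
      · congr 1
        push_cast
        ring
    rw [e1, e2, e3, e4]
  choose f hf using key
  have h1 : (fun i => (p ^ a : ℕ) • f^[i] x) = fun _ : ℕ => (0 : A) := by
    refine (h (fun _ => 0)).unique ?_ ?_
    · intro i
      show (p ^ a : ℕ) • f^[i] x - p • ((p ^ a : ℕ) • f^[i + 1] x) = 0
      rw [Function.iterate_succ_apply', ← hf (f^[i] x), sub_self]
    · intro i
      simp
  have := congrFun h1 0
  simpa using this

/-- `v_p ((1+p)^n - 1) = v_p n + 1` -/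
theorem pow_dvd_one_add_pow {p : ℕ} (hpp : p.Prime) (hp : p ≠ 2) {n a : ℕ} (hn : n ≠ 0)
    (ha : p ^ a ∣ n) (ha' : ¬ p ^ (a + 1) ∣ n) :
    (p : ℤ) ^ (a + 1) ∣ (((1 + p) ^ n : ℕ) : ℤ) - 1 ∧
      ¬ (p : ℤ) ^ (a + 2) ∣ (((1 + p) ^ n : ℕ) : ℤ) - 1 := by
  have hodd : Odd p := hpp.odd_of_ne_two hp
  have hpZ : Prime (p : ℤ) := Nat.prime_iff_prime_int.mp hpp
  have h1 : (p : ℤ) ∣ (1 + p : ℤ) - 1 := ⟨1, by ring⟩
  have h2 : ¬ (p : ℤ) ∣ (1 + p : ℤ) := by
    intro h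
    have h3 : (p : ℤ) ∣ 1 := by
      have := dvd_sub h (dvd_refl (p : ℤ))
      rwa [add_sub_cancel_right] at this
    exact hpZ.not_dvd_one h3
  have h3 := Int.emultiplicity_pow_sub_pow hpp hodd h1 h2 n
  have h4 : emultiplicity (p : ℤ) ((1 + p : ℤ) - 1) = 1 := by
    rw [add_sub_cancel_left]
    have := emultiplicity_eq_coe (a := (p : ℤ)) (b := p) (n := 1)
    rw [Nat.cast_one] at this
    rw [this]
    refine ⟨by rw [pow_one], ?_⟩
    rw [one_add_one_eq_two, sq]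
    intro h
    have h5 : (p : ℤ) ∣ 1 := by
      have h6 : (p : ℤ) * p ∣ p * 1 := by rwa [mul_one]
      exact (mul_dvd_mul_iff_left hpZ.ne_zero).mp h6
    exact hpZ.not_dvd_one h5
  have h5 : emultiplicity p n = a := emultiplicity_eq_coe.mpr ⟨ha, ha'⟩
  rw [h4, h5, one_pow] at h3
  have h6 : emultiplicity (p : ℤ) ((1 + p : ℤ) ^ n - 1) = ((a + 1 : ℕ) : ℕ∞) := by
    rw [h3, Nat.cast_add, Nat.cast_one, add_comm]
  rw [emultiplicity_eq_coe] at h6
  have h7 : (((1 + p) ^ n : ℕ) : ℤ) = (1 + p : ℤ) ^ n := by push_cast; rfl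
  rw [h7]
  exact h6

end Vale.Agent.P261
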