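import Vale.Agent.P251.S.E1MU

/-!
# P261, leaf K5: theorem E1 for the Moore objects of `p ^ k`
-/

open CategoryTheory MonoidalCategory Limits Pretriangulated MonObj

set_option linter.unusedSectionVars false

universe v u

namespace Vale.Agent.P261

open Vale.Agent.P251 Vale.Agent.P251.T Vale.Agent.P251.M Vale.Agent.P251.S Vale.Agent.P251.F
  Vale.Agent.P251.I Vale.Agent.P251.M.EvenSpheres

variable {T : Type u} [Category.{v} T] [Preadditive T] [HasZeroObject T]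
    [HasShift T ℤ] [∀ n : ℤ, (shiftFunctor T n).Additive] [Pretriangulated T] [IsTriangulated T]
    [MonoidalCategory T] [SymmetricCategory T] [TensorTriangulated T] [MonoidalClosed T]
    [HasCoproducts.{0} T] [HasProducts.{0} T] [StableCat T]

section K5

variable (D : MUData T) {p k : ℕ} [Fact p.Prime] (hp : p ≠ 2) (hk : 1 ≤ k) {h : ℕ} (hh : 1 ≤ h)
  {C : T} {i : 𝟙_ T ⟶ C} {δ : C ⟶ (𝟙_ T)⟦(1 : ℤ)⟧}
  (hC : Triangle.mk (((p ^ k : ℕ) : ℤ) • 𝟙 (𝟙_ T)) i δ ∈ distTriang T)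

omit [IsTriangulated T] [TensorTriangulated T] [MonoidalClosed T] [HasCoproducts.{0} T]
  [HasProducts.{0} T] [StableCat T] [SymmetricCategory T] [Pretriangulated T]
  [HasZeroObject T] [MonoidalCategory T] [HasShift T ℤ]
  [∀ n : ℤ, (shiftFunctor T n).Additive] in
theorem zsmul_one_pow' {X : T} (m : ℤ) (k : ℕ) :
    ((m • (1 : End X)) ^ k : End X) = (m ^ k) • (1 : End X) := by
  induction k with
  | zero => rw [pow_zero, pow_zero, one_zsmul]
  | succ k ih =>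
    rw [pow_succ, ih, smul_mul_smul_comm, _root_.mul_one, pow_succ]

include hC in
/-- `v_0` is nilpotent on `N_s`. -/
theorem nil_MP_pow (s : ℕ) : IsNilpotent ((GD.MP D C s).sm (D.vs p 0)) := by
  have h0 : D.vs p 0 = (p : ℤ) • η[D.R ⊗ (stdEven T).PS] := (D.invData p 0).v0
  have h1 : IsNilpotent (((ModStr.self (Am D.R (s + 1))).tensorRight C).sm
      (((p ^ k : ℕ) : ℤ) • η[Am D.R (s + 1)])) :=
    isNilpotent_mod (ModStr.self (Am D.R (s + 1))) ((p ^ k : ℕ) : ℤ) hC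
  have h2 : ((ModStr.self (Am D.R (s + 1))).tensorRight C).sm
      (((p ^ k : ℕ) : ℤ) • η[Am D.R (s + 1)]) =
      ((p : ℤ) • (1 : End (Am D.R (s + 1) ⊗ C))) ^ k := by
    have := map_zsmul ((ModStr.self (Am D.R (s + 1))).tensorRight C).smulHom ((p ^ k : ℕ) : ℤ)
      η[Am D.R (s + 1)]
    refine this.trans ?_
    rw [zsmul_one_pow', Nat.cast_pow]
    congr 1
    exact ModStr.smul_one _
  have h3 : (GD.MP D C s).sm (D.vs p 0) =
      endR (Am D.R (s + 1) ⊗ C) (stdEven T).PS ((p : ℤ) • (1 : End (Am D.R (s + 1) ⊗ C))) := by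
    rw [h0]
    have h4 := map_zsmul (GD.MP D C s).smulHom (p : ℤ) η[D.R ⊗ (stdEven T).PS]
    have h5 := map_zsmul ((tensorRight (stdEven T).PS).mapAddHom (X := Am D.R (s + 1) ⊗ C)
      (Y := Am D.R (s + 1) ⊗ C)) (p : ℤ) (𝟙 _)
    refine h4.trans (Eq.trans ?_ h5.symm)
    congr 1
    exact (ModStr.smul_one _).trans (id_whiskerRight _ _).symm
  rw [h3]
  rw [h2] at h1
  have h6 : IsNilpotent ((p : ℤ) • (1 : End (Am D.R (s + 1) ⊗ C))) := by
    obtain ⟨n, hn⟩ := h1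
    exact ⟨k * n, by rw [pow_mul, hn]⟩
  exact isNilpotent_endR _ h6

include hp hC in
/-- The iterated cofibres of `N_s` have even homotopy. -/
theorem good_MP_pow (s h : ℕ) :
    Good D.P (D.vs p) 1 (h - 1) ((Am D.R (s + 1) ⊗ C) ⊗ (stdEven T).PS) := by
  obtain ⟨C1, i1, δ1, hC1⟩ := distinguished_cocone_triangle (((p : ℤ) • 𝟙 (𝟙_ T)))
  have hg : Good D.P (D.vs p) 1 (h - 1) ((Am D.R (s + 1) ⊗ C1) ⊗ (stdEven T).PS) := by
    rcases Nat.eq_zero_or_pos h with rfl | hh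
    · exact (GD.regC_MP D hp hC1 0 s).odd 0
    · exact (GD.regC_MP D hp hC1 h s).good (h - 1) (by omega)
        (fun j hj hjh => (D.invData p h).inv j hj hjh.le)
  have hδ1 := tensR_dist (stdEven T).PS (tens_dist (Am D.R (s + 1)) hC1)
  have hδk := tensR_dist (stdEven T).PS (tens_dist (Am D.R (s + 1)) hC)
  refine Good.cofibre_pow (j := k) (h - 1)
    (w := endR (Am D.R (s + 1) ⊗ 𝟙_ T) (stdEven T).PS
      (endL (Am D.R (s + 1)) (𝟙_ T) ((p : ℤ) • (1 : End (𝟙_ T))))) hδ1 (C' := _)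
      (q' := (Am D.R (s + 1) ◁ i) ▷ (stdEven T).PS)
      (d' := tensRδ (tensδ (Am D.R (s + 1)) δ) (stdEven T).PS) ?_ hg
  rw [← map_pow, ← map_pow, zsmul_one_pow', ← Nat.cast_pow]
  exact hδk

include hp hk hh hC

theorem moore_e1C (Dk : KosData D.P (p : ℤ) h (D.vs p)) (F : LocFunctor Dk.K) (s : ℕ) :
    E1C F (D.vs p) h (GD.MP D C s) :=
  theoremE1 Dk F (GD.MP D C s) (D.invData p h) hh
    (fun _ _ X f => compact_sum X (isSphere_sph _) f) (nil_MP_pow D hC s)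
    (good_MP_pow D hp hC s h)

end K5

end Vale.Agent.P261
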